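import Vale.Agent.Lib.P160.Mat

/-!
# P160: a lower bound for the singularity probability with the quadratic prefactor

With `q_n = singProb n` the probability that a uniformly random symmetric `n × n` sign matrix
is singular, for every `n ≥ 2`

  `q_n ≥ n (n - 1) / 2 ^ n - n (n - 1) (n (n - 1) - 1) / 4 ^ n`.

Proof: the `n (n - 1)` events `row j = ± row i` (`i < j`) each have probability `2 ^ (-n)`,
any two of them meet with probability at most `2 ^ (1 - 2 n)`, and Bonferroni's inequality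
bounds the probability of their union from below.
-/

namespace Vale.Agent.Results.P160.LowerBoundQuadratic

open Vale.Agent.Lib.P160

theorem result (n : ℕ) (hn : 2 ≤ n) :
    ((n : ℝ) * ((n : ℝ) - 1)) / 2 ^ n
      - ((n : ℝ) * ((n : ℝ) - 1)) * ((n : ℝ) * ((n : ℝ) - 1) - 1) / 4 ^ n ≤ singProb n := by
  obtain ⟨m, rfl⟩ : ∃ m, n = m + 2 := ⟨n - 2, by omega⟩
  have hU := union_lower m
  have hS := union_le_sing (m + 2)
  set U := ((evIndex (m + 2)).biUnion (ev (m + 2))).card with hUdef
  set S := (symSignSing (m + 2)).ncard with hSdef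
  have hN : (m + 2) * (m + 2) - (m + 2) = (m + 2) * (m + 1) := by
    have : (m + 2) * (m + 2) = (m + 2) * (m + 1) + (m + 2) := by ring
    omega
  rw [hN] at hU
  set N := (m + 2) * (m + 1) with hNdef
  have hD : N * N - N + N = N * N := Nat.sub_add_cancel (Nat.le_mul_self N)
  have hc1 : (m + 2).choose 2 = (m + 1) + (m + 1).choose 2 := by
    rw [Nat.choose_succ_succ', Nat.choose_one_right]
  have hc2 : (m + 3).choose 2 = (m + 2) + (m + 2).choose 2 := by
    rw [Nat.choose_succ_succ', Nat.choose_one_right]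
  set a : ℝ := (2 : ℝ) ^ (m + 1).choose 2 with ha
  set b : ℝ := (2 : ℝ) ^ (m + 1) with hb
  have hapos : 0 < a := by rw [ha]; positivity
  have hbpos : 0 < b := by rw [hb]; positivity
  have hUr : (2 : ℝ) * N * (b * a) ≤ 2 * U + ((N : ℝ) * N - N) * a := by
    have h1 : ((N * N - N : ℕ) : ℝ) = (N : ℝ) * N - N := by
      have := congrArg (Nat.cast : ℕ → ℝ) hD
      push_cast at this
      linarith
    rw [← h1, ha, hb, ← pow_add, ← hc1]
    exact_mod_cast hU
  have hSr : (U : ℝ) ≤ (S : ℝ) := by exact_mod_cast hS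
  have hNr : (N : ℝ) = ((m : ℝ) + 2) * ((m : ℝ) + 1) := by rw [hNdef]; push_cast; ring
  have e1 : (2 : ℝ) ^ (m + 2) = 2 * b := by rw [hb, pow_succ]; ring
  have e2 : (4 : ℝ) ^ (m + 2) = 4 * b * b := by
    have h4 : (4 : ℝ) = 2 ^ 2 := by norm_num
    rw [h4, ← pow_mul, hb, ← pow_add, ← pow_add]
    congr 1
    ring
  have e3 : ((2 ^ (m + 3).choose 2 : ℕ) : ℝ) = 2 * b * (b * a) := by
    rw [hc2, hc1]
    push_cast
    rw [pow_add ((2 : ℝ)) (m + 2), pow_add ((2 : ℝ)) (m + 1), e1]
  unfold singProb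
  rw [ncard_symSign, show m + 2 + 1 = m + 3 from rfl, e3, ← hSdef, e1, e2]
  have hcast : ((m + 2 : ℕ) : ℝ) = (m : ℝ) + 2 := by push_cast; ring
  rw [hcast]
  have hx : ((m : ℝ) + 2) * ((m : ℝ) + 2 - 1) = (N : ℝ) := by rw [hNr]; ring
  rw [hx]
  have key : (N : ℝ) / (2 * b) - (N : ℝ) * ((N : ℝ) - 1) / (4 * b * b)
      = (2 * N * (b * a) - ((N : ℝ) * N - N) * a) / (4 * b * b * a) := by
    field_simp
    ring
  have key2 : (S : ℝ) / (2 * b * (b * a)) = (2 * S) / (4 * b * b * a) := by
    field_simp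
    ring
  rw [key, key2]
  apply div_le_div_of_nonneg_right _ (by positivity)
  linarith
end Vale.Agent.Results.P160.LowerBoundQuadratic
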